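import Crest.Agent.X261.End.U
import Crest.Agent.X261.Uen.Main
import Crest.Agent.X261.Har.HeB

/-!
# X261 / END (helper31), file `Set`: B0 (the setup)

* `exists_AQ`, `setup` : the reduced Albanese datum exists;
* `AQ.toEqv`, `AQ.reg`, `AQ.det`, `AQ.coc`, `AQ.heis`, `AQ.sub'`, `AQ.inj'`.
-/

set_option autoImplicit false
set_option linter.unusedSectionVars false

open Set Module

namespace Crest.Agent.X261.End

open Crest.Agent.X261.Grp Crest.Agent.X261.Har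
open Crest.Agent.R275 Crest.Agent.R275.Geo Crest.Agent.R275.GC293 Crest.Agent.R273.Kah_333
open Crest.Agent.R273.Alb645 Crest.Agent.R273.UCov_914 Crest.Agent.R281.ThnM_280
open Crest.Agent.X261.Uen (NoForms)

noncomputable section

variable {n : ℕ} {X : Type} [TopologicalSpace X] {A : Atl n X} {Γ : Type} [Group Γ]
  {D : MonD A Γ}

theorem fin_of_disc {V : Type} [NormedAddCommGroup V] [NormedSpace ℝ V] [FiniteDimensional ℝ V]
    {H : Subgroup Γ} {lam : Γ → V} (hl : AddOn H lam)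
    (hd : ∃ c : ℝ, 0 < c ∧ ∀ g ∈ H, lam g ≠ 0 → c ≤ ‖lam g‖) (R : ℝ) :
    {l | (∃ h ∈ H, lam h = l) ∧ ‖l‖ ≤ R}.Finite := by
  obtain ⟨c, h1, h2⟩ := hd
  refine Uen.Sub.finite_of_sep h1 (fun a ha => ha.2) ?_
  rintro _ ⟨⟨g, hg, rfl⟩, -⟩ _ ⟨⟨h, hh, rfl⟩, -⟩ h3
  by_contra h4
  have h5 : lam (g * h⁻¹) = lam g - lam h := by
    rw [hl g hg _ (H.inv_mem hh), hl.inv hh, sub_eq_add_neg]
  exact (h2 _ (H.mul_mem hg (H.inv_mem hh)) (by rwa [h5, sub_ne_zero])).not_gt (by rwa [h5])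

/-- **B0** -/
theorem exists_AQ [T2Space X] [CompactSpace X] [Finite A.ι] (D : MonD A Γ)
    [SimplyConnectedSpace (D.cov Γ)] (hA : GoodA A) (P : Part A) (K : Kah A)
    (hN : ∀ H : Subgroup Γ, H.Normal → H.FiniteIndex → NoForms D H) (N : Subgroup Γ) [N.Normal] :
    ∃ q, Nonempty (AQ D N q) := by
  have := Cov.A.fg D
  have hfg : ∀ H : Subgroup Γ, H.FiniteIndex → H.FG := fun H _ =>
    (Group.fg_iff_subgroup_fg H).1 inferInstance
  obtain ⟨H, h1, h2, h3, h4⟩ := exists_max N (B := 2 * n) fun H h1 h2 => by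
    obtain ⟨p, ⟨Z⟩⟩ := exists_alb D hA H P K
    have h3 := fin_Hm N (alb_all Z)
    have E : Uen.Eqv D H Z.a (fun g => Z.L g) Z.lam := ⟨Z.hol, Z.eqv, Z.LH,
      fin_of_disc (lam_add Z.eqv Z.LH) (alb_disc Z (hfg H h2)), alb_inj Z⟩
    refine ⟨h3.1, h3.2.trans ?_⟩
    rw [finrank_real_of_complex, finrank_euclideanSpace_fin]
    exact Nat.mul_le_mul_left 2 (E.ueno (hN H h1 h2)).2.1
  obtain ⟨p, ⟨Z⟩⟩ := exists_alb D hA H P K
  exact exists_AQ_of h3 (hfg H h2) Z h4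

namespace AQ

variable {N : Subgroup Γ} {q : ℕ} (Z : AQ D N q) [Nonempty (D.cov Γ)]

theorem add : AddOn Z.H Z.lam := lam_add Z.eqv Z.LH

theorem conj (g : Γ) {h : Γ} (hh : h ∈ Z.H) : Z.lam (g * h * g⁻¹) = Z.L g (Z.lam h) :=
  lam_conj Z.eqv g (Z.LH h hh)

theorem eqvH {h : Γ} (hh : h ∈ Z.H) (e : D.cov Γ) : Z.a (h • e) = Z.a e + Z.lam h := by
  rw [Z.eqv, Z.LH h hh]; rfl

theorem toEqv : Uen.Eqv D Z.H Z.a (fun g => Z.L g) Z.lam :=
  ⟨Z.hol, Z.eqv, Z.LH, fin_of_disc Z.add Z.disc, Z.inj⟩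

theorem coc : ∃ R : ℝ, ∀ t : Cn q, ∃ g ∈ Z.H, ‖t - Z.lam g‖ ≤ R := End.coc Z.add Z.inj

theorem det (g : Γ) : ‖LinearMap.det (Z.L g : Cn q →ₗ[ℂ] Cn q)‖ = 1 := by
  have := Z.fi
  obtain ⟨k, h1, h2⟩ := (FI.of_finiteIndex Z.H).pow_mem (Subgroup.mem_top g)
  have h3 : ((Z.L g : Cn q →ₗ[ℂ] Cn q)) ^ k = 1 := by
    rw [← ContinuousLinearMap.toLinearMap_pow, ← map_pow, Z.LH _ h2]; rfl
  have h4 := congrArg (fun f => ‖LinearMap.det f‖) h3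
  simp only [map_pow, map_one, norm_pow, norm_one] at h4
  exact (pow_eq_one_iff_of_nonneg (norm_nonneg _) h1.ne').1 h4

theorem sub' (P : Subgroup Γ) (hP : P ≤ N)
    (h : ∀ t ∈ Submodule.span ℝ (Z.lam '' P), Complex.I • t ∈ Submodule.span ℝ (Z.lam '' P)) :
    ∀ g ∈ P, Z.lam g = 0 := fun g hg => Z.sub _ (image_mono hP) h _ ⟨g, hg, rfl⟩

theorem inj' {H : Subgroup Γ} (h : FI H Z.H) (l : Cn q →L[ℝ] ℝ) (h0 : ∀ g ∈ H, l (Z.lam g) = 0) :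
    l = 0 := Z.inj l fun _ hg => AddOn.eq_zero_of_fi (b := fun g => l (Z.lam g))
      (fun x hx y hy => by simp only [Z.add x hx y hy, map_add]) h h0 hg

theorem heis [T2Space X] [CompactSpace X] [Finite A.ι] (P : Part A) (K : Kah A)
    (hr : ∃ e, e ∉ Crit (D.atl Γ) univ Z.a) {H : Subgroup Γ} (h : FI H Z.H)
    (B : Cn q →L[ℝ] Cn q →L[ℝ] ℝ) (β : Γ → ℝ)
    (hβ : ∀ g ∈ H, ∀ h ∈ H, β (g * h) = β g + β h + B (Z.lam g) (Z.lam h)) (v w : Cn q) :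
    B v w = B w v := by
  have := Z.fi
  have := h.finiteIndex
  obtain ⟨e, he⟩ := hr
  obtain ⟨p, hp⟩ := (D.atl Γ).cover e
  exact Har.heis D P K H Z.hol (lam := fun g => Z.lam g) (fun g e => Z.eqvH (h.le g.2) e) B
    (β := fun g => β g) (fun g g' => hβ _ g.2 _ g'.2) hp (surj_of_not_crit (mem_univ e) he hp) v w

theorem reg [T2Space X] [CompactSpace X] [Finite A.ι] [ConnectedSpace (D.cov Γ)]
    (hN : NoForms D Z.H) :
    (∃ e, e ∉ Crit (D.atl Γ) univ Z.a) ∧ q ≤ n ∧ Function.Surjective Z.a :=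
  have := Z.fi
  Z.toEqv.ueno hN

end AQ

theorem setup [T2Space X] [CompactSpace X] [Finite A.ι] (D : MonD A Γ)
    [SimplyConnectedSpace (D.cov Γ)] (hA : GoodA A) (P : Part A) (K : Kah A)
    (hN : ∀ H : Subgroup Γ, H.Normal → H.FiniteIndex → NoForms D H) (N : Subgroup Γ) [N.Normal] :
    ∃ (q : ℕ) (Z : AQ D N q), ∃ e, e ∉ Crit (D.atl Γ) univ Z.a := by
  obtain ⟨q, ⟨Z⟩⟩ := exists_AQ D hA P K hN N
  exact ⟨q, Z, (Z.reg (hN _ Z.normal Z.fi)).1⟩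

end

end Crest.Agent.X261.End
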