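import Crest.Agent.X261.End.Set
import Crest.Agent.X261.Uen.Fin

/-!
# X261 / END (helper31), file `Main`: B0 without hypotheses
-/

set_option autoImplicit false

open Set

namespace Crest.Agent.X261.End

open Crest.Agent.R275 Crest.Agent.R275.Geo Crest.Agent.R275.GC293 Crest.Agent.R273.Kah_333
open Crest.Agent.R273.Alb645 Crest.Agent.R273.UCov_914 Crest.Agent.R281.ThnM_280

/-- **B0** -/
theorem setup' {n : ℕ} {X : Type} [TopologicalSpace X] {A : Atl n X} {Γ : Type} [Group Γ]
    [T2Space X] [CompactSpace X] [Finite A.ι] (D : MonD A Γ) [SimplyConnectedSpace (D.cov Γ)]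
    (hA : GoodA A) (P : Part A) (K : Kah A) (hN : Bog.NoBog A) (N : Subgroup Γ) [N.Normal] :
    ∃ (q : ℕ) (Z : AQ D N q), ∃ e, e ∉ Crit (D.atl Γ) univ Z.a :=
  setup D hA P K (fun H _ _ => Uen.noForms hN) N

end Crest.Agent.X261.End
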