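import Crest.Agent.X261.Grp.Defs

/-!
# X261 / END (helper31), file `Alg`: group theory and lattices

* `exists_ext`, `exists_beta`, `exists_bil`, `e3` : the Heisenberg lemma;
* `exists_coord`, `disc`, `coc` : lattices;
* `exists_max` : a finite index subgroup with maximal first Betti number modulo `N`.
-/

set_option autoImplicit false
set_option linter.unusedSectionVars false

open Set Module
open scoped commutatorElement

namespace Crest.Agent.X261.End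

open Crest.Agent.X261.Grp

noncomputable section

variable {Γ : Type*} [Group Γ]

/-- extension of additive functions killing the commutators -/
theorem exists_ext {S : Subgroup Γ} {ψ : Γ → ℝ} (h : AddOn S ψ)
    (hc : ∀ a b : Γ, ⁅a, b⁆ ∈ S ∧ ψ ⁅a, b⁆ = 0) :
    ∃ χ : Γ → ℝ, (∀ a b, χ (a * b) = χ a + χ b) ∧ ∀ s ∈ S, χ s = ψ s := by
  have hk : commutator Γ ≤ h.ker := Subgroup.commutator_le.2 fun a _ b _ => hc a b
  have key : ∀ s ∈ S, ∀ t ∈ S, Abelianization.of s = Abelianization.of t → ψ s = ψ t := by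
    intro s hs t ht he
    have h1 : s⁻¹ * t ∈ commutator Γ := by
      rw [← Abelianization.ker_of, MonoidHom.mem_ker, map_mul, map_inv, he, inv_mul_cancel]
    have h2 := (hk h1).2
    rw [h _ (S.inv_mem hs) _ ht, h.inv hs] at h2
    linarith
  let T : AddSubgroup (Additive (Abelianization Γ)) :=
    (S.map Abelianization.of).toAddSubgroup
  have hT : ∀ x : T, ∃ s ∈ S, Abelianization.of s = Additive.toMul x.1 := fun x => x.2
  choose σ h1 h2 using hT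
  let g : T →+ ℝ := AddMonoidHom.mk' (fun x => ψ (σ x)) fun x y => by
    rw [← h _ (h1 x) _ (h1 y)]
    exact key _ (h1 _) _ (S.mul_mem (h1 x) (h1 y)) (by rw [map_mul, h2, h2, h2]; rfl)
  obtain ⟨r, hr⟩ := (Module.Baer.of_divisible ℝ).extension_property_addMonoidHom T.subtype
    T.subtype_injective g
  refine ⟨fun a => r (Additive.ofMul (Abelianization.of a)), fun a b => by
    simp only [map_mul, ofMul_mul, map_add], fun s hs => ?_⟩
  have h3 := DFunLike.congr_fun hr ⟨Additive.ofMul (Abelianization.of s), s, hs, rfl⟩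
  exact h3.trans (key _ (h1 _) _ hs (h2 _))

/-- a biadditive function -/
structure Bi (T : Type*) [Group T] where
  c : T → T → ℝ
  l : ∀ a b x, c (a * b) x = c a x + c b x
  r : ∀ x a b, c x (a * b) = c x a + c x b

/-- the twisted product `T × ℝ` -/
@[ext] structure TW {T : Type*} [Group T] (_B : Bi T) where
  g : T
  s : ℝ

section tw

variable {T : Type*} [Group T] (B : Bi T)

theorem Bi.one_l (x : T) : B.c 1 x = 0 := by
  have := B.l 1 1 x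
  rw [mul_one] at this
  linarith

theorem Bi.inv_l (a x : T) : B.c a⁻¹ x = -B.c a x := by
  have := B.l a⁻¹ a x
  rw [inv_mul_cancel, B.one_l] at this
  linarith

instance : Mul (TW B) := ⟨fun a b => ⟨a.g * b.g, a.s + b.s - B.c a.g b.g⟩⟩

instance : One (TW B) := ⟨⟨1, 0⟩⟩

instance : Inv (TW B) := ⟨fun a => ⟨a.g⁻¹, -a.s - B.c a.g a.g⟩⟩

instance : Group (TW B) := Group.ofLeftAxioms
  (fun a b c => TW.ext (mul_assoc _ _ _) (by
    change a.s + b.s - B.c a.g b.g + c.s - B.c (a.g * b.g) c.g =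
      a.s + (b.s + c.s - B.c b.g c.g) - B.c a.g (b.g * c.g)
    rw [B.l, B.r]; ring))
  (fun a => TW.ext (one_mul _) (by
    change 0 + a.s - B.c 1 a.g = a.s
    rw [B.one_l]; ring))
  fun a => TW.ext (inv_mul_cancel _) (by
    change -a.s - B.c a.g a.g + a.s - B.c a.g⁻¹ a.g = 0
    rw [B.inv_l]; ring)

/-- the projection -/
def Bi.pr : TW B →* T := MonoidHom.mk' (fun a => a.g) fun _ _ => rfl

theorem Bi.mul_snd (a b : TW B) : (a * b).s = a.s + b.s - B.c a.g b.g := rfl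

end tw

section e3

variable {Γ3 M1 N : Subgroup Γ} {b : Γ → ℝ} (hle : M1 ≤ Γ3)
  (hc : ∀ g ∈ Γ3, ∀ h ∈ Γ3, ⁅g, h⁆ ∈ M1) (hb : AddOn M1 b)
  (hi : ∀ g ∈ Γ3, ∀ m ∈ M1, b (g * m * g⁻¹) = b m)
include hle hc

theorem conj_mem {g m : Γ} (hg : g ∈ Γ3) (hm : m ∈ M1) : g * m * g⁻¹ ∈ M1 := by
  simpa [commutatorElement_def] using M1.mul_mem (hc g hg m (hle hm)) hm

include hb hi

theorem c_l {g g' h : Γ} (hg : g ∈ Γ3) (hg' : g' ∈ Γ3) (hh : h ∈ Γ3) :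
    b ⁅g * g', h⁆ = b ⁅g, h⁆ + b ⁅g', h⁆ := by
  have e : ⁅g * g', h⁆ = g * ⁅g', h⁆ * g⁻¹ * ⁅g, h⁆ := by
    simp only [commutatorElement_def]; group
  rw [e, hb _ (conj_mem hle hc hg (hc _ hg' _ hh)) _ (hc _ hg _ hh), hi _ hg _ (hc _ hg' _ hh),
    add_comm]

omit hle hi in
theorem c_swap {g h : Γ} (hg : g ∈ Γ3) (hh : h ∈ Γ3) : b ⁅h, g⁆ = -b ⁅g, h⁆ := by
  rw [← commutatorElement_inv, hb.inv (hc _ hg _ hh)]

theorem c_r {g h h' : Γ} (hg : g ∈ Γ3) (hh : h ∈ Γ3) (hh' : h' ∈ Γ3) :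
    b ⁅g, h * h'⁆ = b ⁅g, h⁆ + b ⁅g, h'⁆ := by
  rw [c_swap hc hb (Γ3.mul_mem hh hh') hg, c_l hle hc hb hi hh hh' hg, c_swap hc hb hh hg,
    c_swap hc hb hh' hg]
  ring

theorem c_zero {g m : Γ} (hg : g ∈ Γ3) (hm : m ∈ M1) : b ⁅g, m⁆ = 0 := by
  rw [commutatorElement_def, hb _ (conj_mem hle hc hg hm) _ (M1.inv_mem hm), hi _ hg _ hm,
    hb.inv hm, add_neg_cancel]

theorem exists_beta : ∃ β : Γ → ℝ,
    (∀ g ∈ Γ3, ∀ h ∈ Γ3, β (g * h) = β g + β h + b ⁅g, h⁆ / 2) ∧ ∀ m ∈ M1, β m = b m := by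
  classical
  let B : Bi Γ3 := ⟨fun g h => b ⁅(g : Γ), (h : Γ)⁆ / 2,
    fun g g' h => by rw [Subgroup.coe_mul, c_l hle hc hb hi g.2 g'.2 h.2, add_div],
    fun g h h' => by rw [Subgroup.coe_mul, c_r hle hc hb hi g.2 h.2 h'.2, add_div]⟩
  have z : ∀ m g : Γ3, (m : Γ) ∈ M1 → B.c m g = 0 := fun m g hm => by
    change b ⁅(m : Γ), (g : Γ)⁆ / 2 = 0
    rw [c_swap hc hb g.2 m.2, c_zero hle hc hb hi g.2 hm, neg_zero, zero_div]
  obtain ⟨χ, h1, h2⟩ := exists_ext (Γ := TW B) (S := (M1.comap Γ3.subtype).comap B.pr)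
    (ψ := fun a => b (a.g : Γ) + a.s) (fun x hx y hy => by
      have h3 : b ((x.g : Γ) * y.g) = b (x.g : Γ) + b (y.g : Γ) := hb _ hx _ hy
      change b ((x.g : Γ) * y.g) + (x * y).s = b (x.g : Γ) + x.s + (b (y.g : Γ) + y.s)
      rw [B.mul_snd, z x.g _ hx, h3]; ring) fun x y => by
      have e : ((⁅x, y⁆ : TW B).g : Γ) = ⁅(x.g : Γ), (y.g : Γ)⁆ :=
        map_commutatorElement (Γ3.subtype.comp B.pr) x y
      have hm : ((⁅x, y⁆ : TW B).g : Γ) ∈ M1 := e ▸ hc _ x.g.2 _ y.g.2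
      refine ⟨hm, ?_⟩
      have h3 : ⁅x, y⁆ * (y * x) = x * y := by simp only [commutatorElement_def]; group
      have h4 := congrArg TW.s h3
      rw [B.mul_snd, B.mul_snd, B.mul_snd, z _ _ hm] at h4
      have h5 := c_swap hc hb x.g.2 y.g.2
      change _ + (_ + _ - b ⁅(y.g : Γ), (x.g : Γ)⁆ / 2) - 0 = _ + _ - b ⁅(x.g : Γ), (y.g : Γ)⁆ / 2
        at h4
      change b ((⁅x, y⁆ : TW B).g : Γ) + _ = 0
      rw [e]
      linarith
  have h3 : ∀ t : ℝ, χ ⟨1, t⟩ = t := fun t => by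
    have h4 := h2 ⟨1, t⟩ M1.one_mem
    change _ = b 1 + t at h4
    rwa [hb.one, zero_add] at h4
  refine ⟨fun g => if hg : g ∈ Γ3 then χ ⟨⟨g, hg⟩, 0⟩ else 0, fun g hg h hh => ?_,
    fun m hm => ?_⟩
  · simp only [dif_pos hg, dif_pos hh, dif_pos (Γ3.mul_mem hg hh)]
    rw [← h1, ← h3 (b ⁅g, h⁆ / 2), ← h1]
    congr 1
    refine TW.ext (mul_one _).symm ?_
    change 0 = 0 + 0 - b ⁅g, h⁆ / 2 + b ⁅g, h⁆ / 2 - b ⁅g * h, (1 : Γ)⁆ / 2
    rw [commutatorElement_one_right, hb.one]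
    ring
  · simp only [dif_pos (hle hm)]
    exact (h2 ⟨⟨m, hle hm⟩, 0⟩ hm).trans (add_zero _)

end e3

section lat

variable {V : Type*} [NormedAddCommGroup V] [NormedSpace ℝ V] [FiniteDimensional ℝ V]
  {H N : Subgroup Γ} {lam : Γ → V}

theorem exists_bil {c : Γ → Γ → ℝ} (hl : ∀ g ∈ H, ∀ g' ∈ H, ∀ h ∈ H, c (g * g') h = c g h + c g' h)
    (hr : ∀ g ∈ H, AddOn H (c g)) (hN : N ≤ H) (h0 : ∀ g ∈ H, ∀ m ∈ N, c g m = 0 ∧ c m g = 0)
    (maxb : ∀ φ : Γ → ℝ, AddOn H φ → (∀ g ∈ N, φ g = 0) →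
      ∃ l : V →L[ℝ] ℝ, ∀ g ∈ H, φ g = l (lam g))
    (inj : ∀ l : V →L[ℝ] ℝ, (∀ g ∈ H, l (lam g) = 0) → l = 0) :
    ∃ B : V →L[ℝ] V →L[ℝ] ℝ, ∀ g ∈ H, ∀ h ∈ H, c g h = B (lam g) (lam h) := by
  have h1 : ∀ g, ∃ l : V →L[ℝ] ℝ, g ∈ H → ∀ h ∈ H, c g h = l (lam h) := fun g => by
    by_cases hg : g ∈ H
    · exact (maxb _ (hr g hg) fun m hm => (h0 g hg m hm).1).imp fun l hl _ => hl
    · exact ⟨0, fun h => (hg h).elim⟩
  choose l hl' using h1
  let e := Module.finBasis ℝ V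
  have h2 : ∀ i, ∃ l' : V →L[ℝ] ℝ, ∀ g ∈ H, l g (e i) = l' (lam g) := fun i =>
    maxb (fun g => l g (e i)) (fun g hg g' hg' => by
      have h3 := inj (l (g * g') - (l g + l g')) fun h hh => by
        change l (g * g') (lam h) - (l g (lam h) + l g' (lam h)) = 0
        rw [← hl' _ (H.mul_mem hg hg') h hh, ← hl' _ hg h hh, ← hl' _ hg' h hh,
          hl g hg g' hg' h hh, sub_self]
      change l (g * g') (e i) = l g (e i) + l g' (e i)
      rw [sub_eq_zero.1 h3]; rfl) fun m hm => by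
      rw [inj (l m) fun h hh => by rw [← hl' _ (hN hm) h hh, (h0 h hh m hm).2]]; rfl
  choose l' h3 using h2
  refine ⟨∑ i, (l' i).smulRight (LinearMap.toContinuousLinearMap (e.coord i)), fun g hg h hh => ?_⟩
  rw [hl' g hg h hh]
  conv_lhs => rw [← e.sum_repr (lam h), map_sum]
  simp [← h3 _ g hg, mul_comm]

/-- **E3** -/
theorem e3 {M1 : Subgroup Γ} {b : Γ → ℝ} (hle : M1 ≤ H) (hc : ∀ g ∈ H, ∀ h ∈ H, ⁅g, h⁆ ∈ M1)
    (hb : AddOn M1 b) (hi : ∀ g ∈ H, ∀ m ∈ M1, b (g * m * g⁻¹) = b m) (hN : N ≤ M1)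
    (h0 : ∀ m ∈ N, b m = 0)
    (maxb : ∀ φ : Γ → ℝ, AddOn H φ → (∀ g ∈ N, φ g = 0) →
      ∃ l : V →L[ℝ] ℝ, ∀ g ∈ H, φ g = l (lam g))
    (inj : ∀ l : V →L[ℝ] ℝ, (∀ g ∈ H, l (lam g) = 0) → l = 0)
    (heis : ∀ (B : V →L[ℝ] V →L[ℝ] ℝ) (β : Γ → ℝ),
      (∀ g ∈ H, ∀ h ∈ H, β (g * h) = β g + β h + B (lam g) (lam h)) → ∀ v w, B v w = B w v) :
    ∃ l : V →L[ℝ] ℝ, ∀ m ∈ M1, b m = l (lam m) := by
  obtain ⟨β, h1, h2⟩ := exists_beta hle hc hb hi
  obtain ⟨B, hB⟩ := exists_bil (lam := lam) (c := fun g h => b ⁅g, h⁆ / 2)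
    (fun g hg g' hg' h hh => by rw [c_l hle hc hb hi hg hg' hh, add_div])
    (fun g hg h hh h' hh' => by simp only [c_r hle hc hb hi hg hh hh', add_div]) (hN.trans hle)
    (fun g hg m hm => by
      simp only [c_swap hc hb hg (hle (hN hm)), c_zero hle hc hb hi hg (hN hm), neg_zero, zero_div,
        and_self]) maxb inj
  have h3 := heis B β fun g hg h hh => by rw [h1 g hg h hh, ← hB g hg h hh]
  obtain ⟨l, hl⟩ := maxb β (fun g hg h hh => by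
    have h4 := hB g hg h hh
    have h5 := hB h hh g hg
    simp only [c_swap hc hb hg hh] at h5
    rw [h1 g hg h hh]
    linarith [h3 (lam g) (lam h)]) fun m hm => (h2 m (hN hm)).trans (h0 m hm)
  exact ⟨l, fun m hm => (h2 m hm).symm.trans (hl m (hle hm))⟩

/-- the values of an additive map -/
def vals {W : Type*} [AddCommGroup W] {f : Γ → W} (h : AddOn H f) : AddSubgroup W where
  carrier := f '' H
  zero_mem' := ⟨1, H.one_mem, h.one⟩
  add_mem' := by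
    rintro _ _ ⟨x, hx, rfl⟩ ⟨y, hy, rfl⟩
    exact ⟨x * y, H.mul_mem hx hy, h x hx y hy⟩
  neg_mem' := by
    rintro _ ⟨x, hx, rfl⟩
    exact ⟨x⁻¹, H.inv_mem hx, h.inv hx⟩

/-- integral coordinates -/
theorem exists_coord {W : Type*} [AddCommGroup W] [Module ℝ W] {f : Γ → W} (hH : H.FG)
    (h : AddOn H f) : ∃ (k : ℕ) (φ : Fin k → Γ → ℤ), (∀ i, AddOn H (φ i)) ∧
      ∀ g ∈ H, (f g = 0 ↔ ∀ i, φ i g = 0) := by
  classical
  have : Group.FG H := (Group.fg_iff_subgroup_fg H).2 hH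
  let F : Additive H →+ vals h := AddMonoidHom.mk'
    (fun x => ⟨f (Additive.toMul x : H), _, (Additive.toMul x).2, rfl⟩)
    fun x y => Subtype.ext (h _ (Additive.toMul x).2 _ (Additive.toMul y).2)
  have : AddGroup.FG (vals h) := AddGroup.fg_of_surjective (f := F) (by
    rintro ⟨_, x, hx, rfl⟩
    exact ⟨Additive.ofMul ⟨x, hx⟩, rfl⟩)
  have : Module.Finite ℤ (vals h) := Module.Finite.iff_addGroup_fg.2 this
  have : IsAddTorsionFree W := by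
    let _ : Module ℚ W := Module.compHom W (algebraMap ℚ ℝ)
    exact IsAddTorsionFree.of_module_rat W
  let e := Module.finBasis ℤ (vals h)
  refine ⟨_, fun i g => if hg : g ∈ H then e.repr (F (Additive.ofMul ⟨g, hg⟩)) i else 0,
    fun i x hx y hy => ?_, fun g hg => ?_⟩
  · simp only [dif_pos hx, dif_pos hy, dif_pos (H.mul_mem hx hy)]
    rw [← Finsupp.add_apply, ← map_add, ← map_add]
    rfl
  · simp only [dif_pos hg]
    refine Iff.trans ⟨fun h0 => Subtype.ext h0, fun h0 => congrArg Subtype.val h0⟩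
      (e.forall_coord_eq_zero_iff (x := F (Additive.ofMul ⟨g, hg⟩))).symm

theorem disc (hH : H.FG) (hl : AddOn H lam)
    (ext : ∀ φ : Γ → ℝ, AddOn H φ → (∀ g ∈ H, lam g = 0 → φ g = 0) →
      ∃ l : V →L[ℝ] ℝ, ∀ g ∈ H, φ g = l (lam g)) :
    ∃ c : ℝ, 0 < c ∧ ∀ g ∈ H, lam g ≠ 0 → c ≤ ‖lam g‖ := by
  obtain ⟨k, φ, h1, h2⟩ := exists_coord hH hl
  choose l h3 using fun i => ext (fun g => (φ i g : ℝ))
    (fun x hx y hy => by simp only [h1 i x hx y hy, Int.cast_add])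
    fun g hg h0 => by simp only [(h2 g hg).1 h0 i, Int.cast_zero]
  have h4 : 0 ≤ ∑ i, ‖l i‖ := Finset.sum_nonneg fun _ _ => norm_nonneg _
  refine ⟨1 / (∑ i, ‖l i‖ + 1), by positivity, fun g hg h0 => ?_⟩
  obtain ⟨i, hi⟩ := not_forall.1 fun h5 => h0 ((h2 g hg).2 h5)
  have h5 : (1 : ℝ) ≤ |(φ i g : ℝ)| := by exact_mod_cast Int.one_le_abs hi
  have h6 := (l i).le_opNorm (lam g)
  rw [← h3 i g hg, Real.norm_eq_abs] at h6
  have h7 : ‖l i‖ ≤ ∑ i, ‖l i‖ :=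
    Finset.single_le_sum (f := fun i => ‖l i‖) (fun _ _ => norm_nonneg _) (Finset.mem_univ i)
  rw [div_le_iff₀ (by positivity)]
  nlinarith [norm_nonneg (lam g)]

theorem span_top {S : Set V} (inj : ∀ l : V →L[ℝ] ℝ, (∀ v ∈ S, l v = 0) → l = 0) :
    Submodule.span ℝ S = ⊤ := by
  by_contra h
  obtain ⟨f, h1, h2⟩ := Submodule.exists_le_ker_of_lt_top _ (lt_top_iff_ne_top.2 h)
  have h3 := inj (LinearMap.toContinuousLinearMap f) fun v hv => h2 (Submodule.subset_span hv)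
  exact h1 (LinearMap.toContinuousLinearMap.map_eq_zero_iff.1 h3)

theorem coc (hl : AddOn H lam) (inj : ∀ l : V →L[ℝ] ℝ, (∀ g ∈ H, l (lam g) = 0) → l = 0) :
    ∃ R : ℝ, ∀ t : V, ∃ g ∈ H, ‖t - lam g‖ ≤ R := by
  have h1 := span_top (S := lam '' H) fun l h => inj l fun g hg => h _ ⟨g, hg, rfl⟩
  obtain ⟨s, hs, h2⟩ := (Submodule.fg_span_iff_fg_span_finset_subset (R := ℝ) (lam '' H)).1
    (by rw [h1]; exact Module.Finite.fg_top)
  refine ⟨∑ x ∈ s, ‖x‖, fun t => ?_⟩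
  obtain ⟨c, -, hc⟩ := Submodule.mem_span_finset.1 (show t ∈ Submodule.span ℝ (s : Set V) by
    rw [← h2, h1]; trivial)
  obtain ⟨g, hg, h3⟩ : ∑ x ∈ s, ⌊c x⌋ • x ∈ vals hl :=
    sum_mem fun x hx => zsmul_mem (show x ∈ vals hl from hs hx) _
  refine ⟨g, hg, ?_⟩
  rw [h3, ← hc, ← Finset.sum_sub_distrib]
  refine norm_sum_le_of_le _ fun x _ => ?_
  rw [← Int.cast_smul_eq_zsmul ℝ, ← sub_smul, norm_smul, Real.norm_eq_abs, Int.self_sub_floor,
    abs_of_nonneg (Int.fract_nonneg _)]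
  exact mul_le_of_le_one_left (norm_nonneg _) (Int.fract_lt_one _).le

end lat

/-! ### maximal first Betti number -/

/-- additive functions on `H` which kill `N` -/
def Hm (H N : Subgroup Γ) : Submodule ℝ (H → ℝ) where
  carrier := {φ | (∀ x y, φ (x * y) = φ x + φ y) ∧ ∀ x : H, (x : Γ) ∈ N → φ x = 0}
  zero_mem' := ⟨fun _ _ => (add_zero _).symm, fun _ _ => rfl⟩
  add_mem' := fun {a b} ha hb => ⟨fun x y => by
    simp only [Pi.add_apply, ha.1, hb.1]; ring, fun x hx => by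
    simp only [Pi.add_apply, ha.2 x hx, hb.2 x hx, add_zero]⟩
  smul_mem' := fun c a ha => ⟨fun x y => by
    simp only [Pi.smul_apply, ha.1, smul_add], fun x hx => by
    simp only [Pi.smul_apply, ha.2 x hx, smul_zero]⟩

open Classical in
/-- extension by zero -/
def xt {H : Subgroup Γ} (φ : H → ℝ) (g : Γ) : ℝ := if hg : g ∈ H then φ ⟨g, hg⟩ else 0

theorem xt_coe {H : Subgroup Γ} (φ : H → ℝ) (g : H) : xt φ g = φ g := dif_pos g.2

theorem xt_add {H N : Subgroup Γ} {φ : H → ℝ} (h : φ ∈ Hm H N) : AddOn H (xt φ) :=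
  fun x hx y hy => (xt_coe φ (⟨x, hx⟩ * ⟨y, hy⟩)).trans
    ((h.1 _ _).trans (by rw [← xt_coe φ ⟨x, hx⟩, ← xt_coe φ ⟨y, hy⟩]))

theorem fin_Hm {V : Type*} [NormedAddCommGroup V] [NormedSpace ℝ V] [FiniteDimensional ℝ V]
    {H : Subgroup Γ} (N : Subgroup Γ) {lam : Γ → V}
    (all : ∀ φ : Γ → ℝ, AddOn H φ → ∃ l : V →L[ℝ] ℝ, ∀ g ∈ H, φ g = l (lam g)) :
    Module.Finite ℝ (Hm H N) ∧ finrank ℝ (Hm H N) ≤ finrank ℝ V := by
  let F : (V →L[ℝ] ℝ) →ₗ[ℝ] (H → ℝ) := LinearMap.pi fun g => ContinuousLinearMap.apply ℝ ℝ (lam g)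
  have h1 : Hm H N ≤ LinearMap.range F := fun φ hφ => by
    obtain ⟨l, hl⟩ := all _ (xt_add hφ)
    exact ⟨l, funext fun g => ((xt_coe φ g).symm.trans (hl g g.2)).symm⟩
  refine ⟨Submodule.finiteDimensional_of_le h1, (Submodule.finrank_mono h1).trans
    (F.finrank_range_le.trans (le_of_eq ?_))⟩
  rw [← LinearMap.toContinuousLinearMap.finrank_eq]
  exact Subspace.dual_finrank_eq

theorem exists_max (N : Subgroup Γ) [N.Normal] {B : ℕ}
    (hB : ∀ H : Subgroup Γ, H.Normal → H.FiniteIndex →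
      Module.Finite ℝ (Hm H N) ∧ finrank ℝ (Hm H N) ≤ B) :
    ∃ H : Subgroup Γ, H.Normal ∧ H.FiniteIndex ∧ N ≤ H ∧ ∀ H2 : Subgroup Γ, FI H2 H → N ≤ H2 →
      ∀ φ : Γ → ℝ, AddOn H2 φ → (∀ g ∈ N, φ g = 0) →
        ∃ ψ : Γ → ℝ, AddOn H ψ ∧ ∀ g ∈ H2, φ g = ψ g := by
  obtain ⟨H, ⟨h1, h2, h3⟩, hm⟩ := Set.Finite.exists_maximalFor'
    (fun H : Subgroup Γ => finrank ℝ (Hm H N)) {H | H.Normal ∧ H.FiniteIndex ∧ N ≤ H}
    ((Set.finite_Iic B).subset (by rintro _ ⟨H, hH, rfl⟩; exact (hB H hH.1 hH.2.1).2))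
    ⟨⊤, inferInstance, inferInstance, le_top⟩
  refine ⟨H, h1, h2, h3, fun H2 h4 h5 φ h6 h7 => ?_⟩
  have := h4.finiteIndex
  have h8 : FI H2.normalCore H2 :=
    (FI.of_finiteIndex H2.normalCore).of_le' H2.normalCore_le le_top
  have h9 := h8.trans h4
  have h10 : N ≤ H2.normalCore := Subgroup.normal_le_normalCore.2 h5
  let R : Hm H N →ₗ[ℝ] Hm H2.normalCore N :=
    { toFun := fun ψ => ⟨fun x => ψ.1 ⟨x, h9.le x.2⟩,
        fun x y => ψ.2.1 ⟨x, h9.le x.2⟩ ⟨y, h9.le y.2⟩, fun x hx => ψ.2.2 _ hx⟩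
      map_add' := fun _ _ => rfl
      map_smul' := fun _ _ => rfl }
  have hR : Function.Injective R := (injective_iff_map_eq_zero R).2 fun ψ h0 =>
    Subtype.ext (funext fun x => (xt_coe ψ.1 x).symm.trans ((xt_add ψ.2).eq_zero_of_fi h9
      (fun y hy => (xt_coe ψ.1 ⟨y, h9.le hy⟩).trans (congrFun (congrArg Subtype.val h0) ⟨y, hy⟩))
      x.2))
  have := (hB H h1 h2).1
  have := (hB H2.normalCore inferInstance inferInstance).1
  have h11 := LinearMap.finrank_le_finrank_of_injective hR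
  have h12 := hm (j := H2.normalCore) ⟨inferInstance, inferInstance, h10⟩ h11
  obtain ⟨ψ, hψ⟩ := (LinearMap.injective_iff_surjective_of_finrank_eq_finrank
    (le_antisymm h11 h12)).1 hR ⟨fun x => φ x, fun x y => h6 _ (h8.le x.2) _ (h8.le y.2),
      fun x hx => h7 _ hx⟩
  refine ⟨xt ψ.1, xt_add ψ.2, fun g hg => sub_eq_zero.1 (AddOn.eq_zero_of_fi (K := H2)
    (b := fun g => φ g - xt ψ.1 g) (fun x hx y hy => ?_) h8 (fun x hx => ?_) hg)⟩
  · simp only [h6 x hx y hy, xt_add ψ.2 x (h4.le hx) y (h4.le hy)]; ring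
  · exact sub_eq_zero.2 ((congrFun (congrArg Subtype.val hψ) ⟨x, hx⟩).symm.trans
      (xt_coe ψ.1 ⟨x, h9.le hx⟩).symm)

end

end Crest.Agent.X261.End
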