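import Crest.Agent.X261.End.Alg
import Crest.Agent.X261.Rel.Stm

/-!
# X261 / END (helper31), file `Bd`: conjugacy orbits of characters are bounded, from `VertStmt`
-/

set_option autoImplicit false
set_option linter.unusedSectionVars false

open Set Filter Topology Complex Matrix MeasureTheory Module
open scoped ENNReal ComplexConjugate

namespace Crest.Agent.X261.End

open Crest.Agent.R275.Geo Crest.Agent.R275.Core144
open Crest.Agent.R275.OmT75 (dl dj)
open Crest.Agent.R273.UCov_914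
open Crest.Agent.R273.Fock_243 (FI eW ep)
open Crest.Agent.X261.Top (dW wdg)
open Crest.Agent.X261.Rel Crest.Agent.X261.Rel.Act

noncomputable section

variable {n q : ℕ}

theorem meas_dj (b : Fin n) (F : Cn n → ℂ) : Measurable (dj b F) :=
  ((measurable_fderiv_apply_const ℝ F _).sub
    ((measurable_fderiv_apply_const ℝ F _).const_smul I)).const_smul (1 / 2 : ℂ)

/-- the form `∂ F ∧ τ` in a chart -/
def twf (α : Cn n → Cn q) (F : Cn n → ℂ) (J : FI n) (z : Cn n) : ℂ :=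
  ∑ b, (eW (ep b) *ᵥ wdg fun k a => dj a (fun z => α z k) z) J • dj b F z

theorem meas_twf (α : Cn n → Cn q) (F : Cn n → ℂ) (J : FI n) : Measurable (twf α F J) := by
  refine Finset.measurable_sum _ fun b _ => Measurable.mul ?_ (meas_dj b F)
  simp only [mulVec, dotProduct]
  refine Finset.measurable_sum _ fun S _ => Measurable.const_mul ?_ _
  unfold wdg
  split_ifs
  · simp only [det_apply']
    exact Finset.measurable_sum _ fun σ _ =>
      (Finset.measurable_prod _ fun l _ => meas_dj _ _).const_mul _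
  · exact measurable_const

theorem twf_add (α : Cn n → Cn q) {F F' : Cn n → ℂ} (J : FI n) {z : Cn n}
    (h : DifferentiableAt ℝ F z) (h' : DifferentiableAt ℝ F' z) :
    twf α (fun z => F z + F' z) J z = twf α F J z + twf α F' J z := by
  simp only [twf, dj, fderiv_fun_add h h', ← Finset.sum_add_distrib]
  refine Finset.sum_congr rfl fun b _ => ?_
  simp only [_root_.add_apply, smul_eq_mul]
  ring

theorem twf_mul (α : Cn n → Cn q) {F : Cn n → ℂ} (c : ℂ) (J : FI n) {z : Cn n}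
    (h : DifferentiableAt ℝ F z) : twf α (fun z => c * F z) J z = c * twf α F J z := by
  simp only [twf, dj, fderiv_const_mul h, Finset.mul_sum]
  refine Finset.sum_congr rfl fun b _ => ?_
  simp only [_root_.smul_apply, smul_eq_mul]
  ring

theorem twf_shift (α : Cn n → Cn q) (F : Cn n → ℂ) (c : Cn q) :
    twf (fun z => α z + c) F = twf α F := by
  ext J z
  simp only [twf, dj, PiLp.add_apply, fderiv_add_const]

theorem lint_add {K : Set (Cn n)} {u : Cn n → ℂ} (hu : AEMeasurable u (volume.restrict K))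
    (w : Cn n → ℂ) : ∫⁻ z in K, ‖u z + w z‖ₑ ^ 2 ≤
      2 * (∫⁻ z in K, ‖u z‖ₑ ^ 2) + 2 * ∫⁻ z in K, ‖w z‖ₑ ^ 2 := by
  rw [← lintegral_const_mul' _ _ ENNReal.ofNat_ne_top, ← lintegral_const_mul' _ _
    ENNReal.ofNat_ne_top, ← lintegral_add_left' ((hu.enorm.pow_const 2).const_mul 2)]
  refine lintegral_mono fun z => ?_
  have h : ‖u z + w z‖₊ ^ 2 ≤ 2 * ‖u z‖₊ ^ 2 + 2 * ‖w z‖₊ ^ 2 := by
    have h1 := norm_add_le (u z) (w z)
    have h2 : ‖u z + w z‖ ^ 2 ≤ 2 * ‖u z‖ ^ 2 + 2 * ‖w z‖ ^ 2 := by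
      nlinarith [norm_nonneg (u z + w z), sq_nonneg (‖u z‖ - ‖w z‖), norm_nonneg (u z),
        norm_nonneg (w z)]
    exact_mod_cast h2
  simpa only [enorm_eq_nnnorm, ENNReal.coe_add, ENNReal.coe_mul, ENNReal.coe_pow,
    ENNReal.coe_ofNat] using ENNReal.coe_le_coe.2 h

theorem exists_diag {P : Type*} [Countable P] {a : P → ℕ → ℕ → ℝ≥0∞}
    (h : ∀ p j, Tendsto (a p j) atTop (𝓝 0)) : ∃ κ : ℕ → ℕ, ∀ p, ∀ᶠ j in atTop, a p j (κ j) ≤ 1 := by
  obtain ⟨c, hc⟩ := exists_injective_nat P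
  choose κ hκ using fun j => (((Set.finite_Iic j).preimage hc.injOn).eventually_all.2
    fun p _ => (h p j).eventually (Iic_mem_nhds zero_lt_one)).exists
  exact ⟨κ, fun p => (eventually_ge_atTop (c p)).mono fun j hj => hκ j p hj⟩

theorem exists_exh {U : Set (Cn n)} (hU : IsOpen U) : ∃ E : ℕ → Set (Cn n),
    (∀ l, IsCompact (E l) ∧ E l ⊆ U) ∧ ∀ K ⊆ U, IsCompact K → ∃ l, K ⊆ E l := by
  have := hU.locallyCompactSpace
  let E := CompactExhaustion.choice U
  refine ⟨fun l => Subtype.val '' E l, fun l => ⟨(E.isCompact l).image continuous_subtype_val,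
    Subtype.coe_image_subset _ _⟩, fun K h1 h2 => ?_⟩
  obtain ⟨l, hl⟩ := E.exists_superset_of_isCompact
    (IsInducing.subtypeVal.isCompact_preimage' h2 (by rwa [Subtype.range_coe]))
  exact ⟨l, fun z hz => ⟨⟨z, h1 hz⟩, hl hz, rfl⟩⟩

variable {X : Type} [TopologicalSpace X] {A : Atl n X} {G : Type} [Group G] {D : MonD A G}

/-- a function on the cover in a chart -/
def rd {W : Type*} (D : MonD A G) (f : D.cov G → W) (i : A.ι) (v : G) (z : Cn n) : W :=
  f (D.pt i v ((A.e i).symm z))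

theorem tw_eq (al : D.cov G → Cn q) (f : D.cov G → ℂ) {i : A.ι} (v : G) {z : Cn n}
    (hz : z ∈ (A.e i).target) (J : FI n) :
    Rel.tw D al f i v ((A.e i).symm z) J = twf (rd D al i v) (rd D f i v) J z := by
  simp only [Rel.tw, twf, dW, dl, (A.e i).right_inv hz]
  rfl

theorem sm_diff {f : D.cov G → ℂ} (h : (D.atl G).Sm f) {i : A.ι} (v : G) {z : Cn n}
    (hz : z ∈ (A.e i).target) : DifferentiableAt ℝ (rd D f i v) z :=
  ((h (i, v)).contDiffAt ((A.e i).open_target.mem_nhds hz)).differentiableAt (by simp)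

/-- locally bounded energy -/
def UB (D : MonD A G) (al : D.cov G → Cn q) (F : ℕ → D.cov G → ℂ) : Prop :=
  (∀ j, (D.atl G).Sm (F j)) ∧ ∀ i v, ∀ K ⊆ (A.e i).target, IsCompact K → ∀ J, ∃ C < ⊤,
    ∀ᶠ j in atTop, ∫⁻ z in K, ‖twf (rd D al i v) (rd D (F j) i v) J z‖ₑ ^ 2 ≤ C

/-- energy tending to zero -/
def Nz (D : MonD A G) (al : D.cov G → Cn q) (F : ℕ → D.cov G → ℂ) : Prop :=
  (∀ j, (D.atl G).Sm (F j)) ∧ ∀ i v, ∀ K ⊆ (A.e i).target, IsCompact K → ∀ J,
    Tendsto (fun j => ∫⁻ z in K, ‖twf (rd D al i v) (rd D (F j) i v) J z‖ₑ ^ 2) atTop (𝓝 0)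

variable {al : D.cov G → Cn q} {F F' : ℕ → D.cov G → ℂ}

theorem Nz.lim (h : Nz D al F) : Lim D al F fun _ _ _ _ => 0 :=
  ⟨h.1, fun _ _ _ => differentiableOn_const _, fun i v K h1 h2 J =>
    (h.2 i v K h1 h2 J).congr fun j => setLIntegral_congr_fun h2.measurableSet fun z hz => by
      simp only [sub_zero, tw_eq al (F j) v (h1 hz)]⟩

theorem Nz.add (h : Nz D al F) (h' : Nz D al F') : Nz D al fun j e => F j e + F' j e := by
  refine ⟨fun j p => (h.1 j p).add (h'.1 j p), fun i v K h1 h2 J => ?_⟩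
  have h3 := (ENNReal.Tendsto.const_mul (a := 2) (h.2 i v K h1 h2 J)
    (Or.inr ENNReal.ofNat_ne_top)).add
    (ENNReal.Tendsto.const_mul (a := 2) (h'.2 i v K h1 h2 J) (Or.inr ENNReal.ofNat_ne_top))
  rw [mul_zero, add_zero] at h3
  refine tendsto_of_tendsto_of_tendsto_of_le_of_le tendsto_const_nhds h3 (fun _ => zero_le)
    fun j => le_trans (le_of_eq ?_) (lint_add (meas_twf _ _ J).aemeasurable _)
  exact setLIntegral_congr_fun h2.measurableSet fun z hz => congrArg (fun t => ‖t‖ₑ ^ 2)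
    (twf_add _ J (sm_diff (h.1 j) v (h1 hz)) (sm_diff (h'.1 j) v (h1 hz)))

theorem UB.mul (h : UB D al F) {d : ℕ → ℂ} (hd : Tendsto d atTop (𝓝 0)) :
    Nz D al fun j e => d j * F j e := by
  refine ⟨fun j p => contDiffOn_const.mul (h.1 j p), fun i v K h1 h2 J => ?_⟩
  obtain ⟨C, h3, h4⟩ := h.2 i v K h1 h2 J
  have h5 := ENNReal.Tendsto.mul_const (b := C) (ENNReal.Tendsto.pow (n := 2) hd.enorm)
    (Or.inr h3.ne)
  simp only [enorm_zero, ne_eq, OfNat.ofNat_ne_zero, not_false_eq_true, zero_pow, zero_mul] at h5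
  refine tendsto_of_tendsto_of_tendsto_of_le_of_le' tendsto_const_nhds h5
    (Eventually.of_forall fun _ => zero_le) (h4.mono fun j hj => ?_)
  refine le_trans (le_of_eq ?_) (mul_le_mul_right hj _)
  rw [← lintegral_const_mul' _ _ (by simp)]
  refine setLIntegral_congr_fun h2.measurableSet fun z hz => ?_
  have h6 := twf_mul (rd D al i v) (d j) J (sm_diff (h.1 j) v (h1 hz))
  change ‖twf _ (fun z => d j * rd D (F j) i v z) J z‖ₑ ^ 2 = _
  rw [h6, enorm_mul, mul_pow]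

theorem Nz.sum {ι : Type*} (T : Finset ι) {F : ι → ℕ → D.cov G → ℂ} (h : ∀ s, Nz D al (F s))
    (h' : Nz D al F') : Nz D al fun j e => F' j e + ∑ s ∈ T, F s j e := by
  classical
  induction T using Finset.induction_on with
  | empty => simpa using h'
  | insert a T ha ih =>
    simp only [Finset.sum_insert ha, add_left_comm (F' _ _)]
    exact (h a).add ih

variable {M N : Subgroup G}

theorem rd_deck {W : Type*} (f : D.cov G → W) (g : G) (i : A.ι) (v : G) :
    rd D (fun e => f (g • e)) i v = rd D f i (v * g⁻¹) := by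
  ext z
  simp only [rd, D.deck_pt]

theorem ub_tr [Countable A.ι] [Countable G] (Z : Stp D q M) {a : Act M ℂ} (m : Min D Z.al a N)
    {g : ℕ → G} (hg : ∀ j, Z.L (g j) = 1) :
    ∃ κ : ℕ → ℕ, UB D Z.al fun j e => m.f (κ j) (g j • e) := by
  have h0 : ∀ j i v, rd D Z.al i (v * (g j)⁻¹) = fun z => rd D Z.al i v z + Z.lam (g j) :=
    fun j i v => by
      rw [← rd_deck]
      ext1 z
      simp only [rd, Z.eqv, hg, one_apply_eq_self]
  choose E h1 h2 using fun i => exists_exh (A.e i).open_target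
  obtain ⟨κ, hκ⟩ := exists_diag fun (p : A.ι × G × ℕ × FI n) j =>
    m.lim.lim p.1 (p.2.1 * (g j)⁻¹) _ (h1 p.1 p.2.2.1).2 (h1 p.1 p.2.2.1).1 p.2.2.2
  refine ⟨κ, fun j p => ?_, fun i v K h3 h4 J => ?_⟩
  · have h3 := m.lim.f_sm (κ j) (p.1, p.2 * (g j)⁻¹)
    change ContDiffOn ℝ _ (rd D (fun e => m.f (κ j) (g j • e)) p.1 p.2) _
    rw [rd_deck]
    exact h3
  have h5 : ∃ C < ⊤, ∀ j, ∫⁻ z in K, ‖m.S i (v * (g j)⁻¹) ((A.e i).symm z) J‖ₑ ^ 2 ≤ C := by
    refine h4.induction_on (p := fun K => ∃ C < ⊤, ∀ j,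
      ∫⁻ z in K, ‖m.S i (v * (g j)⁻¹) ((A.e i).symm z) J‖ₑ ^ 2 ≤ C) ⟨0, by simp, by simp⟩
      (fun s t hst ⟨C, h5, h6⟩ => ⟨C, h5, fun j => (lintegral_mono_set hst).trans (h6 j)⟩)
      (fun s t ⟨C, h5, h6⟩ ⟨C', h7, h8⟩ => ⟨C + C', ENNReal.add_lt_top.2 ⟨h5, h7⟩,
        fun j => (lintegral_union_le _ _ _).trans (add_le_add (h6 j) (h8 j))⟩) fun z hz => ?_
    obtain ⟨V, h5, C, h6, h7⟩ := m.up i z (h3 hz)
    obtain ⟨B, h8, h9, h10⟩ := local_compact_nhds
      (inter_mem h5 ((A.e i).open_target.mem_nhds (h3 hz)))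
    refine ⟨B, mem_nhdsWithin_of_mem_nhds h8, C * volume (rd D Z.al i v '' B),
      ENNReal.mul_lt_top h6 (h10.image_of_continuousOn ((Z.hol (i, v)).continuousOn.mono
        fun w hw => (h9 hw).2)).measure_lt_top, fun j =>
      (h7 _ B (fun w hw => (h9 hw).1) h10 J).trans (le_of_eq ?_)⟩
    change C * volume (rd D Z.al i (v * (g j)⁻¹) '' B) = _
    rw [h0, ← image_image (fun w => w + Z.lam (g j)), image_add_right, measure_preimage_add_right]
  obtain ⟨C, h6, h7⟩ := h5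
  obtain ⟨l, hl⟩ := h2 i K h3 h4
  refine ⟨2 * C + 2 * 1, by finiteness, (hκ (i, v, l, J)).mono fun j hj => ?_⟩
  refine le_trans (le_of_eq ?_) ((lint_add (((m.lim.S_hol i (v * (g j)⁻¹) J).continuousOn.mono
    h3).aemeasurable h4.measurableSet) _).trans
    (add_le_add (mul_le_mul_right (h7 j) _) (mul_le_mul_right ((lintegral_mono_set hl).trans hj) _)))
  refine setLIntegral_congr_fun h4.measurableSet fun z hz => ?_
  simp only [add_sub_cancel, tw_eq _ _ _ (h3 hz), h0, twf_shift, rd_deck]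

/-- the translation action of a character -/
def act (β : Hm M N) : Act M ℂ where
  π := 1
  J := starₗᵢ ℂ
  JJ := star_star
  Jπ _ _ := rfl
  b m := β.1 m
  Jb _ := conj_ofReal _
  coc g h := by rw [β.2.1, ofReal_add]; rfl

theorem act_α (β : Hm M N) (m : M) (x : ℂ) : (act β).α m x = x + β.1 m := rfl

/-- conjugation of characters -/
def cj [hM : M.Normal] [hN : N.Normal] (g : G) (β : Hm M N) : Hm M N :=
  ⟨fun m => β.1 ⟨g * m * g⁻¹, hM.conj_mem _ m.2 g⟩, fun x y => by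
    refine Eq.trans (congrArg β.1 (Subtype.ext ?_)) (β.2.1 _ _)
    simp, fun x hx => β.2.2 _ (hN.conj_mem _ hx g)⟩

theorem fin_Hm_fg (h : M.FG) : Module.Finite ℝ (Hm M N) := by
  obtain ⟨S, hS⟩ := h
  have h1 : ∀ s : S, (s : G) ∈ M := fun s => hS ▸ Subgroup.subset_closure s.2
  refine Module.Finite.of_injective (LinearMap.pi fun s : S =>
    (LinearMap.proj ⟨s, h1 s⟩ : (M → ℝ) →ₗ[ℝ] ℝ) ∘ₗ (Hm M N).subtype)
    ((injective_iff_map_eq_zero _).2 fun β h0 => Subtype.ext (funext fun x => ?_))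
  have h2 : M ≤ (xt_add β.2).ker := by
    conv_lhs => rw [← hS]
    exact (Subgroup.closure_le _).2 fun s hs =>
      ⟨h1 ⟨s, hs⟩, (xt_coe β.1 ⟨s, h1 ⟨s, hs⟩⟩).trans (congrFun h0 ⟨s, hs⟩)⟩
  exact (xt_coe β.1 x).symm.trans (h2 x.2).2

/-- **bounded orbits** -/
theorem bdd [Countable A.ι] [Countable G] [hM : M.Normal] [N.Normal] (hV : VertStmt)
    (Z : Stp D q M) (hF : Z.Fb) {H : Subgroup G} (hH : ∀ g ∈ H, Z.L g = 1) (hfg : M.FG)
    (fam : ∀ β : Hm M N, Nonempty (Min D Z.al (act β) N)) (b : Hm M N) (m : M) :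
    ∃ C : ℝ, ∀ g ∈ H, |(cj g b).1 m| ≤ C := by
  have := fin_Hm_fg (N := N) hfg
  let e := finBasis ℝ (Hm M N)
  have he : ∀ (β : Hm M N) m, β.1 m = ∑ s, e.equivFun β s * (e s).1 m := fun β m => by
    conv_lhs => rw [← e.sum_equivFun β, Submodule.coe_sum, Finset.sum_apply]
    rfl
  by_cases hb : ∃ C : ℝ, ∀ g ∈ H, ‖e.equivFun (cj g b)‖ ≤ C
  · obtain ⟨C, hC⟩ := hb
    refine ⟨∑ s, C * |(e s).1 m|, fun g hg => ?_⟩
    rw [he]
    refine (Finset.abs_sum_le_sum_abs _ _).trans (Finset.sum_le_sum fun s _ => ?_)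
    rw [abs_mul]
    exact mul_le_mul_of_nonneg_right ((norm_le_pi_norm _ s).trans (hC g hg)) (abs_nonneg _)
  exfalso
  push Not at hb
  choose g h1 h2 using fun j : ℕ => hb j
  have h3 : ∀ j, 0 < ‖e.equivFun (cj (g j) b)‖ := fun j => (Nat.cast_nonneg j).trans_lt (h2 j)
  obtain ⟨y, hy, φ, h4, h5⟩ := (isCompact_sphere (0 : Fin _ → ℝ) 1).tendsto_subseq
    (x := fun j => ‖e.equivFun (cj (g j) b)‖⁻¹ • e.equivFun (cj (g j) b)) fun j => by
      rw [mem_sphere_zero_iff_norm, norm_smul, norm_inv, norm_norm, inv_mul_cancel₀ (h3 j).ne']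
  obtain ⟨m0⟩ := fam b
  have m1 := fun s => (fam (e s)).some
  obtain ⟨κ, hκ⟩ := ub_tr Z m0 (g := fun j => g (φ j)) fun j => hH _ (h1 _)
  choose κ' hκ' using fun s => ub_tr Z (m1 s) (g := fun _ => 1) fun _ => map_one _
  have h6 : Tendsto (fun j => ‖e.equivFun (cj (g (φ j)) b)‖⁻¹) atTop (𝓝 0) :=
    tendsto_inv_atTop_zero.comp (tendsto_atTop_mono (fun j => (h2 (φ j)).le)
      (tendsto_natCast_atTop_atTop.comp h4.tendsto_atTop))
  have h7 := (Nz.sum Finset.univ (fun s => (hκ' s).mul (d := fun j => ((y s -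
      ‖e.equivFun (cj (g (φ j)) b)‖⁻¹ * e.equivFun (cj (g (φ j)) b) s : ℝ) : ℂ)) (by
      have h7 := (continuous_ofReal.tendsto _).comp ((tendsto_pi_nhds.1 h5 s).const_sub (y s))
      rwa [sub_self] at h7))
    (hκ.mul (d := fun j => (‖e.equivFun (cj (g (φ j)) b)‖⁻¹ : ℝ))
      ((continuous_ofReal.tendsto _).comp h6))).lim
  obtain ⟨m2, h8⟩ : ∃ m2, (e.equivFun.symm y).1 m2 ≠ 0 := by
    by_contra h
    push Not at h
    have h8 : e.equivFun.symm y = 0 := Subtype.ext (funext h)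
    rw [LinearEquiv.map_eq_zero_iff] at h8
    simp [h8] at hy
  obtain ⟨i, v, x, -, h9⟩ := hV n X A G D q M Z hF ℂ (act (e.equivFun.symm y)) _ _ h7
    (fun k x => by
      have h9 : conj (m0.f (κ k) (g (φ k) • x)) = _ := m0.f_re _ _
      have h10 : ∀ s, conj ((m1 s).f (κ' s k) ((1 : G) • x)) = _ := fun s => (m1 s).f_re _ _
      change conj _ = _
      simp only [map_add, map_sum, map_mul, conj_ofReal, h9, h10])
    (fun k m x => by
      have h9 := m0.f_eqv (κ k) ⟨_, hM.conj_mem _ m.2 (g (φ k))⟩ (g (φ k) • x)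
      rw [smul_smul, inv_mul_cancel_right, mul_smul, act_α] at h9
      have h10 : b.1 _ = _ := he (cj (g (φ k)) b) m
      have h11 := he (e.equivFun.symm y) m
      rw [LinearEquiv.apply_symm_apply] at h11
      simp only [one_smul, h9, h10, fun s => (m1 s).f_eqv (κ' s k) m x, act_α, h11, mul_add,
        Finset.sum_add_distrib]
      push_cast
      simp only [sub_mul, Finset.sum_sub_distrib, Finset.mul_sum, mul_assoc]
      ring)
    ⟨{m2}, _, norm_pos_iff.2 (ofReal_ne_zero.2 h8), fun x => ⟨m2, Finset.mem_singleton_self _, by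
      rw [act_α, add_sub_cancel_left]⟩⟩
  exact h9 rfl

end

end Crest.Agent.X261.End
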