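import Crest.Agent.X261.End.Bd
import Crest.Agent.X261.End.Main
import Crest.Agent.X261.Ni.Alg
import Crest.Agent.X261.B88.Main

/-!
# X261 / END (helper31), file `NI`: B0 and B4 in the language of `B88`
-/

set_option autoImplicit false

open Set

namespace Crest.Agent.X261.End

open Crest.Agent.X261.Grp Crest.Agent.X261.B88

theorem setupStmt : SetupStmt := fun _ _ _ _ _ _ _ _ hA P K _ hN _ _ D _ N _ =>
  setup' D hA P K hN N

theorem niStmt_of (hV : Rel.VertStmt) : NIStmt := by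
  intro hF n X _ _ _ _ A _ hA P K Γ _ D hc N _ hJ q Z ht hb
  have := Z.fi
  have := Cov.A.countable D
  refine Ni.ni_of_bdd hJ (fg_MG hb) Z.le Z.add (fun m hm _ => ((mem_MG Z).1 hm).2) Z.maxb Z.inj
    (fun H2 h => Z.heis P K ht h) fun M hM h1 b h2 h3 m hm => ?_
  obtain ⟨F⟩ := stp_fb hb h1
  obtain ⟨T, -, h4⟩ := (FI.of_finiteIndex Z.H).exists_cover
  choose C hC using fun t : Γ => bdd hV (stp Z h1.le) F Z.LH (h1.fg (fg_MG hb))
    (fun β => hF n X A hA P K Γ D hc N q Z ht M hM h1 ℂ (act β) fun m hm x => by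
      rw [act_α, β.2.2 m hm, Complex.ofReal_zero, add_zero])
    ⟨fun x => b x, fun x y => h2 _ x.2 _ y.2, fun x hx => h3 _ x.2 hx⟩
    ⟨t⁻¹ * m * t, hM.conj_mem' m hm t⟩
  refine ⟨∑ t ∈ T, |C t|, fun g => ?_⟩
  obtain ⟨t, h5, h6⟩ := h4 g⁻¹ (Subgroup.mem_top _)
  have h7 : |b ((t⁻¹ * g⁻¹)⁻¹ * (t⁻¹ * m * t) * (t⁻¹ * g⁻¹)⁻¹⁻¹)| ≤ C t := hC t _ (Z.H.inv_mem h6)
  rw [show (t⁻¹ * g⁻¹)⁻¹ * (t⁻¹ * m * t) * (t⁻¹ * g⁻¹)⁻¹⁻¹ = g * m * g⁻¹ by group] at h7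
  exact h7.trans ((le_abs_self _).trans
    (Finset.single_le_sum (f := fun t => |C t|) (fun _ _ => abs_nonneg _) h5))

end Crest.Agent.X261.End
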