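import Crest.Agent.X261.End.Alg
import Crest.Agent.X261.Har.Alb

/-!
# X261 / END (helper31), file `U`: the quotient of the Albanese map

* `Us S` : the largest complex subspace spanned over `ℝ` by its elements of `S`;
* `AQ D N q` : the Albanese datum modulo `Us (lam '' N)` for a subgroup with maximal `b₁`.
-/

set_option autoImplicit false
set_option linter.unusedSectionVars false

open Set Module

namespace Crest.Agent.X261.End

open Crest.Agent.X261.Grp Crest.Agent.X261.Har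
open Crest.Agent.R275 Crest.Agent.R275.Geo Crest.Agent.R275.GC293 Crest.Agent.R273.Kah_333
open Crest.Agent.R273.Alb645 Crest.Agent.R273.UCov_914

noncomputable section

section U

variable {V V' : Type*} [AddCommGroup V] [Module ℂ V] [AddCommGroup V'] [Module ℂ V']

/-- the largest complex subspace spanned over `ℝ` by its elements of `S` -/
def Us (S : Set V) : Submodule ℂ V :=
  sSup {W : Submodule ℂ V | ∀ w ∈ W, w ∈ Submodule.span ℝ (S ∩ W)}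

theorem le_Us {S : Set V} {W : Submodule ℂ V} (h : ∀ w ∈ W, w ∈ Submodule.span ℝ (S ∩ W)) :
    W ≤ Us S := le_sSup h

theorem Us_span {S : Set V} {v : V} (hv : v ∈ Us S) : v ∈ Submodule.span ℝ (S ∩ Us S) := by
  let T : Submodule ℂ V :=
    { carrier := {v | ∀ c : ℂ, c • v ∈ Submodule.span ℝ (S ∩ Us S)}
      zero_mem' := fun c => by rw [smul_zero]; exact zero_mem _
      add_mem' := fun hx hy c => by rw [smul_add]; exact add_mem (hx c) (hy c)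
      smul_mem' := fun d x hx c => by rw [smul_smul]; exact hx _ }
  have h : Us S ≤ T := sSup_le fun W hW x hx c =>
    Submodule.span_mono (inter_subset_inter_right _ (le_Us hW)) (hW _ (W.smul_mem c hx))
  simpa using h hv 1

theorem Us_map {S : Set V} (L : V →ₗ[ℂ] V) (hL : ∀ v ∈ S, L v ∈ S) {v : V} (hv : v ∈ Us S) :
    L v ∈ Us S := by
  refine le_Us (W := (Us S).map L) ?_ ⟨v, hv, rfl⟩
  rintro _ ⟨w, hw, rfl⟩
  have h1 := Submodule.mem_map_of_mem (f := L.restrictScalars ℝ) (Us_span hw)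
  rw [Submodule.map_span] at h1
  refine Submodule.span_mono ?_ h1
  rintro _ ⟨x, hx, rfl⟩
  exact ⟨hL x hx.1, x, hx.2, rfl⟩

theorem Us_sub {S : Set V} (π : V →ₗ[ℂ] V') (hπ : LinearMap.ker π = Us S) {P : Set V'}
    (hP : P ⊆ π '' S) (hI : ∀ v ∈ Submodule.span ℝ P, Complex.I • v ∈ Submodule.span ℝ P) :
    ∀ v ∈ P, v = 0 := by
  let W' : Submodule ℂ V' :=
    { carrier := Submodule.span ℝ P
      zero_mem' := zero_mem _
      add_mem' := add_mem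
      smul_mem' := fun c v hv => by
        rw [← Complex.re_add_im c, add_smul, mul_smul]
        exact add_mem (Submodule.smul_mem _ c.re hv) (Submodule.smul_mem _ c.im (hI v hv)) }
  have h1 : W'.comap π ≤ Us S := le_Us fun w hw => by
    have h2 : Submodule.span ℝ P ≤
        (Submodule.span ℝ (S ∩ W'.comap π)).map (π.restrictScalars ℝ) :=
      Submodule.span_le.2 fun p hp => by
        obtain ⟨x, hx, rfl⟩ := hP hp
        exact ⟨x, Submodule.subset_span ⟨hx, Submodule.subset_span hp⟩, rfl⟩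
    obtain ⟨u, hu, h3⟩ := h2 hw
    have h4 : w - u ∈ Us S := by
      rw [← hπ, LinearMap.mem_ker, map_sub, sub_eq_zero]
      exact h3.symm
    have h5 : Us S ≤ W'.comap π := hπ ▸ LinearMap.ker_le_comap π
    simpa using add_mem (Submodule.span_mono (inter_subset_inter_right _ h5) (Us_span h4)) hu
  intro v hv
  obtain ⟨x, -, rfl⟩ := hP hv
  have h6 := h1 (show x ∈ W'.comap π from Submodule.subset_span hv)
  rwa [← hπ] at h6

theorem exists_quot {p : ℕ} (U : Submodule ℂ (Cn p)) :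
    ∃ (q : ℕ) (π : Cn p →L[ℂ] Cn q) (s : Cn q →L[ℂ] Cn p),
      LinearMap.ker (π : Cn p →ₗ[ℂ] Cn q) = U ∧ ∀ v, π (s v) = v := by
  let e : (Cn p ⧸ U) ≃ₗ[ℂ] Cn (finrank ℂ (Cn p ⧸ U)) :=
    LinearEquiv.ofFinrankEq _ _ finrank_euclideanSpace_fin.symm
  obtain ⟨s, hs⟩ := (e.toLinearMap ∘ₗ U.mkQ).exists_rightInverse_of_surjective
    (LinearMap.range_eq_top.2 (e.surjective.comp U.mkQ_surjective))
  refine ⟨_, LinearMap.toContinuousLinearMap (e.toLinearMap ∘ₗ U.mkQ),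
    LinearMap.toContinuousLinearMap s, ?_, fun v => LinearMap.congr_fun hs v⟩
  change LinearMap.ker (e.toLinearMap ∘ₗ U.mkQ) = U
  rw [LinearEquiv.ker_comp, Submodule.ker_mkQ]

end U

variable {n : ℕ} {X : Type} [TopologicalSpace X] {A : Atl n X} {Γ : Type} [Group Γ]

/-- the reduced Albanese datum -/
structure AQ (D : MonD A Γ) (N : Subgroup Γ) (q : ℕ) where
  H : Subgroup Γ
  normal : H.Normal
  fi : H.FiniteIndex
  le : N ≤ H
  a : D.cov Γ → Cn q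
  L : Γ →* (Cn q →L[ℂ] Cn q)
  lam : Γ → Cn q
  hol : HolF (D.atl Γ) a
  eqv : ∀ g e, a (g • e) = L g (a e) + lam g
  LH : ∀ g ∈ H, L g = 1
  disc : ∃ c : ℝ, 0 < c ∧ ∀ g ∈ H, lam g ≠ 0 → c ≤ ‖lam g‖
  inj : ∀ l : Cn q →L[ℝ] ℝ, (∀ g ∈ H, l (lam g) = 0) → l = 0
  sub : ∀ P ⊆ lam '' N, (∀ v ∈ Submodule.span ℝ P, Complex.I • v ∈ Submodule.span ℝ P) →
    ∀ v ∈ P, v = 0
  maxb : ∀ H2 : Subgroup Γ, FI H2 H → N ≤ H2 → ∀ φ : Γ → ℝ, AddOn H2 φ → (∀ g ∈ N, φ g = 0) →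
    ∃ l : Cn q →L[ℝ] ℝ, ∀ g ∈ H2, φ g = l (lam g)

section coc

variable {M V : Type*} [MulAction Γ M] [Nonempty M] [NormedAddCommGroup V] [NormedSpace ℂ V]
  {a : M → V} {L : Γ →* (V →L[ℂ] V)} {lam : Γ → V} (eqv : ∀ g e, a (g • e) = L g (a e) + lam g)
include eqv

theorem lam_mul (g h : Γ) : lam (g * h) = L g (lam h) + lam g := by
  obtain ⟨e⟩ := ‹Nonempty M›
  have h1 := eqv (g * h) e
  rw [mul_smul, eqv, eqv, map_add, map_mul, add_assoc] at h1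
  exact (add_left_cancel h1).symm

theorem lam_one : lam 1 = 0 := by
  have h1 := lam_mul eqv 1 1
  rw [mul_one, map_one] at h1
  exact left_eq_add.1 h1

theorem lam_add {H : Subgroup Γ} (LH : ∀ g ∈ H, L g = 1) : AddOn H lam := fun g hg h _ => by
  rw [lam_mul eqv, LH g hg, add_comm]; rfl

theorem lam_conj (g : Γ) {h : Γ} (hh : L h = 1) : lam (g * h * g⁻¹) = L g (lam h) := by
  have h1 := lam_mul eqv g g⁻¹
  rw [mul_inv_cancel, lam_one eqv] at h1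
  rw [lam_mul eqv, lam_mul eqv, map_mul, hh, mul_one, add_left_comm, ← h1, add_zero]

end coc

theorem alb_all {D : MonD A Γ} {H : Subgroup Γ} {q : ℕ} (Z : AlbD D H q) (φ : Γ → ℝ)
    (h : AddOn H φ) : ∃ l : Cn q →L[ℝ] ℝ, ∀ g ∈ H, φ g = l (Z.lam g) :=
  (Z.univ (fun g => φ g) fun x y => h _ x.2 _ y.2).exists.imp fun _ hl g hg => hl ⟨g, hg⟩

theorem alb_inj {D : MonD A Γ} {H : Subgroup Γ} {q : ℕ} (Z : AlbD D H q) (l : Cn q →L[ℝ] ℝ)
    (h : ∀ g ∈ H, l (Z.lam g) = 0) : l = 0 :=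
  (Z.univ (fun _ => 0) fun _ _ => (add_zero _).symm).unique (fun g => (h g g.2).symm)
    fun _ => rfl

theorem alb_disc {D : MonD A Γ} [Nonempty (D.cov Γ)] {H : Subgroup Γ} {q : ℕ} (Z : AlbD D H q)
    (hH : H.FG) : ∃ c : ℝ, 0 < c ∧ ∀ g ∈ H, Z.lam g ≠ 0 → c ≤ ‖Z.lam g‖ :=
  disc hH (lam_add Z.eqv Z.LH) fun φ h _ => alb_all Z φ h

/-- the quotient by `Us (lam '' N)` -/
theorem exists_AQ_of {D : MonD A Γ} [Nonempty (D.cov Γ)] {H N : Subgroup Γ} [hH : H.Normal]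
    [hf : H.FiniteIndex] [hN : N.Normal] (hle : N ≤ H) (hfg : H.FG) {p : ℕ} (Z : AlbD D H p)
    (hm : ∀ H2 : Subgroup Γ, FI H2 H → N ≤ H2 → ∀ φ : Γ → ℝ, AddOn H2 φ → (∀ g ∈ N, φ g = 0) →
      ∃ ψ : Γ → ℝ, AddOn H ψ ∧ ∀ g ∈ H2, φ g = ψ g) : ∃ q, Nonempty (AQ D N q) := by
  obtain ⟨q, π, s, h1, h2⟩ := exists_quot (Us (Z.lam '' N))
  have hk : ∀ {v}, v ∈ Us (Z.lam '' N) ↔ π v = 0 := fun {v} => by rw [← h1]; rfl
  have hs : ∀ v, v - s (π v) ∈ Us (Z.lam '' N) := fun v => hk.2 (by rw [map_sub, h2, sub_self])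
  have hL : ∀ g v, π (Z.L g (s (π v))) = π (Z.L g v) := fun g v => by
    have h3 := hk.1 (Us_map (Z.L g : Cn p →ₗ[ℂ] Cn p) (by
      rintro _ ⟨m, hm, rfl⟩
      exact ⟨_, hN.conj_mem m hm g, lam_conj Z.eqv g (Z.LH m (hle hm))⟩) (hs v))
    change π (Z.L g _) = 0 at h3
    rw [map_sub, map_sub, sub_eq_zero] at h3
    exact h3.symm
  have hd : ∀ φ : Γ → ℝ, AddOn H φ → (∀ g ∈ N, π (Z.lam g) = 0 → φ g = 0) →
      ∃ l : Cn q →L[ℝ] ℝ, ∀ g ∈ H, φ g = l (π (Z.lam g)) := fun φ h3 h4 => by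
    obtain ⟨l, hl⟩ := alb_all Z φ h3
    refine ⟨l ∘L s.restrictScalars ℝ, fun g hg => ?_⟩
    have h5 : Submodule.span ℝ (Z.lam '' N ∩ Us (Z.lam '' N)) ≤
        LinearMap.ker (l : Cn p →ₗ[ℝ] ℝ) := Submodule.span_le.2 (by
      rintro _ ⟨⟨m, hm, rfl⟩, h6⟩
      exact (hl m (hle hm)).symm.trans (h4 m hm (hk.1 h6)))
    have h6 : l (_ - _) = 0 := h5 (Us_span (hs (Z.lam g)))
    rw [map_sub, sub_eq_zero] at h6
    exact (hl g hg).trans h6
  have ha : AddOn H fun g => π (Z.lam g) := fun g hg h hh => by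
    simp only [lam_add Z.eqv Z.LH g hg h hh, map_add]
  refine ⟨q, ⟨⟨H, hH, hf, hle, fun e => π (Z.a e),
    ⟨⟨fun g => π ∘L Z.L g ∘L s, ?_⟩, fun g h => ?_⟩, fun g => π (Z.lam g), Z.hol.clm π,
    fun g e => ?_, fun g hg => ?_, disc hfg ha fun φ h3 h4 => hd φ h3 fun g hg => h4 g (hle hg),
    fun l hl => ?_, fun P hP => Us_sub (π : Cn p →ₗ[ℂ] Cn q) h1 ?_, fun H2 h3 h4 φ h5 h6 => ?_⟩⟩⟩
  · ext1 v
    simp [h2]
  · ext1 v
    simp [hL]
  · simp [Z.eqv, hL]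
  · ext1 v
    simp [Z.LH g hg, h2]
  · have h3 := alb_inj Z (l ∘L π.restrictScalars ℝ) hl
    ext1 v
    rw [← h2 v]
    exact DFunLike.congr_fun h3 (s v)
  · rwa [image_image]
  · obtain ⟨ψ, h7, h8⟩ := hm H2 h3 h4 φ h5 h6
    obtain ⟨l, hl⟩ := hd ψ h7 fun g hg _ => (h8 g (h4 hg)).symm.trans (h6 g hg)
    exact ⟨l, fun g hg => (h8 g hg).trans (hl g (h3.le hg))⟩

end

end Crest.Agent.X261.End
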